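import Vale.Agent.P366.Bdl.B1

namespace Vale.Agent.Results.P366.RadialTrace
open Vale.Agent.P366 Vale.Agent.P366.Stmt

/-- The sharp spacetime Penrose inequality, with nonzero ADM momentum, for initial data whose
metric, and the trace of `K` over the centred spheres, are rotationally symmetric outside the
smallest centred ball containing the boundary. -/
theorem result (n : ℕ) (hn : 3 ≤ n) (D : Stmt.Exterior n) (hAF : D.IsAF) (hDEC : D.DEC)
    (hT : D.Trapped) (m : ℝ) (P : Fin n → ℝ) (hm : D.IsEnergy m) (hP : D.IsMomentum P)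
    (R₁ : ℝ) (hR₁ : IsGreatest {r | ∃ x, D.F x = 0 ∧ len x = r} R₁) (c k : ℝ → ℝ)
    (hc : ∀ x, R₁ ≤ len x → ∀ i j, D.g x i j = if i = j then c (len x) else 0)
    (hk : ∀ x, R₁ ≤ len x → Stmt.trS D.g D.K len x = k (len x)) :
    D.Amin ≠ ⊤ ∧ √(∑ i, P i ^ 2) < m ∧
    (D.Amin.toReal / Stmt.omega n) ^ (((n : ℝ) - 2) / (n - 1)) / 2 ≤
      √(m ^ 2 - ∑ i, P i ^ 2) :=
  penrose_stmt2 hn D hAF hDEC hT hm hP hR₁ hc hk

end Vale.Agent.Results.P366.RadialTrace
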